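import Mathlib

/-!
# P181 / helper855: the numeric lemma of block [F] (binary kernel theorem, route M)

Abel type identity and the block recursion of #4111 (3).
-/

open Finset

namespace Vale.Agent.P181.H855

/-- Abel sum `∑ C(k,j) (a+j)^j (b-j)^(k-j)`. -/
noncomputable def abelSum (k : ℕ) (a b : ℝ) : ℝ :=
  ∑ j ∈ range (k + 1), (k.choose j : ℝ) * (a + j) ^ j * (b - j) ^ (k - j)

theorem abelSum_hasDerivAt (k : ℕ) (a b t : ℝ) :
    HasDerivAt (fun t : ℝ => abelSum (k + 1) (a + t) (b - t))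
      ((k + 1 : ℝ) * (abelSum k (a + t + 1) (b - t - 1) - abelSum k (a + t) (b - t))) t := by
  have h1 : ∀ j ∈ range (k + 1 + 1), HasDerivAt
      (fun t : ℝ => ((k + 1).choose j : ℝ) * (a + t + j) ^ j * (b - t - j) ^ (k + 1 - j))
      (((k + 1).choose j : ℝ) * (j * (a + t + j) ^ (j - 1)) * (b - t - j) ^ (k + 1 - j)
        - ((k + 1).choose j : ℝ) * (a + t + j) ^ j *
          (((k + 1 - j : ℕ) : ℝ) * (b - t - j) ^ (k + 1 - j - 1))) t := by
    intro j _
    have ha : HasDerivAt (fun t : ℝ => a + t + j) 1 t := by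
      simpa using ((hasDerivAt_id t).const_add a).add_const (j : ℝ)
    have hb : HasDerivAt (fun t : ℝ => b - t - j) (-1) t := by
      simpa using ((hasDerivAt_id t).const_sub b).sub_const (j : ℝ)
    have h := ((ha.pow j).const_mul ((k + 1).choose j : ℝ)).mul (hb.pow (k + 1 - j))
    refine h.congr_deriv ?_
    simp only [Pi.pow_apply]
    ring
  have h2 := HasDerivAt.fun_sum h1
  have e : ((k + 1 : ℝ) * (abelSum k (a + t + 1) (b - t - 1) - abelSum k (a + t) (b - t)))
      = ∑ j ∈ range (k + 1 + 1),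
        (((k + 1).choose j : ℝ) * (j * (a + t + j) ^ (j - 1)) * (b - t - j) ^ (k + 1 - j)
        - ((k + 1).choose j : ℝ) * (a + t + j) ^ j *
          (((k + 1 - j : ℕ) : ℝ) * (b - t - j) ^ (k + 1 - j - 1))) := by
    rw [Finset.sum_sub_distrib, mul_sub]
    congr 1
    · rw [Finset.sum_range_succ']
      simp only [abelSum, mul_sum]
      simp only [Nat.cast_zero, zero_mul, mul_zero, add_zero]
      refine Finset.sum_congr rfl fun j _ => ?_
      have hc : ((k + 1).choose (j + 1) : ℝ) * ((j + 1 : ℕ) : ℝ) = (k + 1 : ℝ) * (k.choose j : ℝ) := by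
        have := Nat.add_one_mul_choose_eq k j
        have h' : ((k + 1 : ℕ) : ℝ) * (k.choose j : ℝ) = ((k + 1).choose (j + 1) : ℝ) * ((j + 1 : ℕ) : ℝ) := by
          exact_mod_cast this
        rw [← h']
        push_cast
        ring
      have e1 : k + 1 - (j + 1) = k - j := by omega
      have e2 : j + 1 - 1 = j := by omega
      rw [e1, e2]
      rw [show ((k + 1).choose (j + 1) : ℝ) * (((j + 1 : ℕ) : ℝ) * (a + t + ((j + 1 : ℕ) : ℝ)) ^ j)
        = (((k + 1).choose (j + 1) : ℝ) * ((j + 1 : ℕ) : ℝ)) * (a + t + ((j + 1 : ℕ) : ℝ)) ^ j by ring, hc]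
      push_cast
      rw [show a + t + 1 + (j : ℝ) = a + t + ((j : ℝ) + 1) by ring,
        show b - t - 1 - (j : ℝ) = b - t - ((j : ℝ) + 1) by ring]
      ring
    · rw [Finset.sum_range_succ]
      simp only [abelSum, mul_sum]
      rw [show k + 1 - (k + 1) = 0 by omega]
      simp only [Nat.cast_zero, zero_mul, mul_zero, add_zero]
      refine Finset.sum_congr rfl fun j hj => ?_
      have hj' : j ≤ k := by
        have := Finset.mem_range.mp hj
        omega
      have hc : ((k + 1).choose j : ℝ) * ((k + 1 - j : ℕ) : ℝ) = (k + 1 : ℝ) * (k.choose j : ℝ) := by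
        have := Nat.choose_mul_succ_eq k j
        have h' : (k.choose j : ℝ) * ((k + 1 : ℕ) : ℝ) = ((k + 1).choose j : ℝ) * ((k + 1 - j : ℕ) : ℝ) := by
          exact_mod_cast this
        rw [← h']
        push_cast
        ring
      have e1 : k + 1 - j - 1 = k - j := by omega
      rw [e1]
      rw [show ((k + 1).choose j : ℝ) * (a + t + (j : ℝ)) ^ j *
          (((k + 1 - j : ℕ) : ℝ) * (b - t - (j : ℝ)) ^ (k - j))
        = (((k + 1).choose j : ℝ) * ((k + 1 - j : ℕ) : ℝ)) * (a + t + (j : ℝ)) ^ j *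
          (b - t - (j : ℝ)) ^ (k - j) by ring, hc]
      ring
  rw [e]
  exact h2

theorem abelSum_const (k : ℕ) : ∀ a b t : ℝ, abelSum k (a + t) (b - t) = abelSum k a b := by
  induction k with
  | zero => intro a b t; simp [abelSum]
  | succ k ih =>
    intro a b t
    have hd : ∀ s : ℝ, HasDerivAt (fun t : ℝ => abelSum (k + 1) (a + t) (b - t)) 0 s := by
      intro s
      have h := abelSum_hasDerivAt k a b s
      have h0 : abelSum k (a + s + 1) (b - s - 1) - abelSum k (a + s) (b - s) = 0 := by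
        rw [ih (a + s) (b - s) 1]
        ring
      rw [h0, mul_zero] at h
      exact h
    have := is_const_of_deriv_eq_zero (f := fun t : ℝ => abelSum (k + 1) (a + t) (b - t))
      (fun s => (hd s).differentiableAt) (fun s => (hd s).deriv) t 0
    simpa using this

/-- closed form of the block numbers (shifted: `k = n - 1`). -/
noncomputable def bnum (m k : ℕ) : ℝ :=
  ∑ j ∈ range m, (k.choose j : ℝ) * (j : ℝ) ^ j * ((m : ℝ) - j) ^ (k - j)
  - ∑ j ∈ range (m - 1), (k.choose j : ℝ) * (1 + (j : ℝ)) ^ j * ((m : ℝ) - 1 - j) ^ (k - j)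

theorem sum_range_choose_eq (k M : ℕ) (hM : k + 1 ≤ M) (f : ℕ → ℝ) :
    ∑ j ∈ range M, (k.choose j : ℝ) * f j = ∑ j ∈ range (k + 1), (k.choose j : ℝ) * f j := by
  symm
  apply Finset.sum_subset
  · intro x hx
    simp only [mem_range] at hx ⊢
    omega
  · intro x _ hx
    simp only [mem_range, not_lt] at hx
    rw [Nat.choose_eq_zero_of_lt (by omega)]
    simp

theorem bnum_low (m k : ℕ) (h : k + 2 ≤ m) : bnum m k = 0 := by
  have h1 : ∑ j ∈ range m, (k.choose j : ℝ) * (j : ℝ) ^ j * ((m : ℝ) - j) ^ (k - j)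
      = abelSum k 0 m := by
    simp only [abelSum, mul_assoc, zero_add]
    exact sum_range_choose_eq k m (by omega) (fun j => (j : ℝ) ^ j * ((m : ℝ) - j) ^ (k - j))
  have h2 : ∑ j ∈ range (m - 1), (k.choose j : ℝ) * (1 + (j : ℝ)) ^ j * ((m : ℝ) - 1 - j) ^ (k - j)
      = abelSum k (0 + 1) ((m : ℝ) - 1) := by
    simp only [abelSum, mul_assoc, zero_add]
    exact sum_range_choose_eq k (m - 1) (by omega)
      (fun j => (1 + (j : ℝ)) ^ j * ((m : ℝ) - 1 - j) ^ (k - j))
  rw [bnum, h1, h2, abelSum_const]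
  ring

theorem bnum_diag (k : ℕ) : bnum (k + 1) k = ((k : ℝ) + 1) ^ k := by
  have h1 : ∑ j ∈ range (k + 1), (k.choose j : ℝ) * (j : ℝ) ^ j * (((k + 1 : ℕ) : ℝ) - j) ^ (k - j)
      = abelSum k 0 ((k + 1 : ℕ) : ℝ) := by
    simp only [abelSum, zero_add]
  have h2 : ∑ j ∈ range (k + 1 - 1), (k.choose j : ℝ) * (1 + (j : ℝ)) ^ j *
        (((k + 1 : ℕ) : ℝ) - 1 - j) ^ (k - j)
      = abelSum k (0 + 1) (((k + 1 : ℕ) : ℝ) - 1) - ((k : ℝ) + 1) ^ k := by
    rw [show k + 1 - 1 = k by omega]
    simp only [abelSum, zero_add]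
    rw [Finset.sum_range_succ]
    simp only [Nat.choose_self, Nat.sub_self, pow_zero, Nat.cast_one, one_mul, mul_one]
    ring
  rw [bnum, h1, h2, abelSum_const]
  ring

/-- binomial convolution -/
theorem conv_choose (k j : ℕ) (y : ℝ) :
    ∑ i ∈ range (k + 1), (k.choose i : ℝ) * ((i.choose j : ℝ) * y ^ (i - j))
      = (k.choose j : ℝ) * (y + 1) ^ (k - j) := by
  rcases Nat.lt_or_ge k j with h | h
  · rw [Nat.choose_eq_zero_of_lt h]
    simp only [Nat.cast_zero, zero_mul]
    apply Finset.sum_eq_zero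
    intro i hi
    have : i < j := by
      have := Finset.mem_range.mp hi
      omega
    rw [Nat.choose_eq_zero_of_lt this]
    simp
  · obtain ⟨e, rfl⟩ := Nat.exists_eq_add_of_le h
    rw [show j + e + 1 = j + (e + 1) by ring, Finset.sum_range_add]
    have h0 : ∑ x ∈ range j, ((j + e).choose x : ℝ) * ((x.choose j : ℝ) * y ^ (x - j)) = 0 := by
      apply Finset.sum_eq_zero
      intro i hi
      rw [Nat.choose_eq_zero_of_lt (Finset.mem_range.mp hi)]
      simp
    rw [h0, zero_add, show j + e - j = e by omega, add_pow, mul_sum]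
    refine Finset.sum_congr rfl fun i hi => ?_
    have hie : i ≤ e := by
      have := Finset.mem_range.mp hi
      omega
    have hc : ((j + e).choose (j + i) : ℝ) * ((j + i).choose j : ℝ)
        = ((j + e).choose j : ℝ) * (e.choose i : ℝ) := by
      have := Nat.choose_mul (n := j + e) (k := j + i) (s := j) (by omega)
      rw [show j + e - j = e by omega, show j + i - j = i by omega] at this
      exact_mod_cast this
    rw [show j + i - j = i by omega, ← mul_assoc, hc]
    simp
    ring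

theorem bnum_rec (m k : ℕ) (hm : 1 ≤ m) :
    ∑ i ∈ range (k + 1), (k.choose i : ℝ) * bnum m i
      = bnum (m + 1) k - (k.choose m : ℝ) * (m : ℝ) ^ m + (k.choose (m - 1) : ℝ) * (m : ℝ) ^ (m - 1) := by
  obtain ⟨p, rfl⟩ : ∃ p, m = p + 1 := ⟨m - 1, by omega⟩
  simp only [bnum, mul_sub, Finset.sum_sub_distrib]
  rw [show p + 1 - 1 = p by omega, show p + 1 + 1 - 1 = p + 1 by omega]
  have h1 : ∑ i ∈ range (k + 1), (k.choose i : ℝ) *
        ∑ j ∈ range (p + 1), (i.choose j : ℝ) * (j : ℝ) ^ j * (((p + 1 : ℕ) : ℝ) - j) ^ (i - j)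
      = ∑ j ∈ range (p + 1), (k.choose j : ℝ) * (j : ℝ) ^ j * (((p + 1 : ℕ) : ℝ) - j + 1) ^ (k - j) := by
    simp only [mul_sum]
    rw [Finset.sum_comm]
    refine Finset.sum_congr rfl fun j _ => ?_
    have := conv_choose k j (((p + 1 : ℕ) : ℝ) - j)
    calc ∑ i ∈ range (k + 1), (k.choose i : ℝ) * ((i.choose j : ℝ) * (j : ℝ) ^ j * (((p + 1 : ℕ) : ℝ) - j) ^ (i - j))
        = (j : ℝ) ^ j * ∑ i ∈ range (k + 1), (k.choose i : ℝ) * ((i.choose j : ℝ) * (((p + 1 : ℕ) : ℝ) - j) ^ (i - j)) := by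
          rw [mul_sum]
          exact Finset.sum_congr rfl fun i _ => by ring
      _ = _ := by rw [this]; ring
  have h2 : ∑ i ∈ range (k + 1), (k.choose i : ℝ) *
        ∑ j ∈ range p, (i.choose j : ℝ) * (1 + (j : ℝ)) ^ j * (((p + 1 : ℕ) : ℝ) - 1 - j) ^ (i - j)
      = ∑ j ∈ range p, (k.choose j : ℝ) * (1 + (j : ℝ)) ^ j * (((p + 1 : ℕ) : ℝ) - 1 - j + 1) ^ (k - j) := by
    simp only [mul_sum]
    rw [Finset.sum_comm]
    refine Finset.sum_congr rfl fun j _ => ?_
    have := conv_choose k j (((p + 1 : ℕ) : ℝ) - 1 - j)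
    calc ∑ i ∈ range (k + 1), (k.choose i : ℝ) * ((i.choose j : ℝ) * (1 + (j : ℝ)) ^ j * (((p + 1 : ℕ) : ℝ) - 1 - j) ^ (i - j))
        = (1 + (j : ℝ)) ^ j * ∑ i ∈ range (k + 1), (k.choose i : ℝ) * ((i.choose j : ℝ) * (((p + 1 : ℕ) : ℝ) - 1 - j) ^ (i - j)) := by
          rw [mul_sum]
          exact Finset.sum_congr rfl fun i _ => by ring
      _ = _ := by rw [this]; ring
  rw [h1, h2]
  have e1 : ∀ j : ℕ, (((p + 1 : ℕ) : ℝ) - j + 1) = (((p + 1 + 1 : ℕ) : ℝ) - j) := by
    intro j; push_cast; ring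
  have e2 : ∀ j : ℕ, (((p + 1 : ℕ) : ℝ) - 1 - j + 1) = (((p + 1 + 1 : ℕ) : ℝ) - 1 - j) := by
    intro j; push_cast; ring
  simp only [e1, e2]
  rw [Finset.sum_range_succ (fun x => (k.choose x : ℝ) * (1 + (x : ℝ)) ^ x *
    (((p + 1 + 1 : ℕ) : ℝ) - 1 - (x : ℝ)) ^ (k - x)) p,
    Finset.sum_range_succ (fun x => (k.choose x : ℝ) * (x : ℝ) ^ x *
    (((p + 1 + 1 : ℕ) : ℝ) - (x : ℝ)) ^ (k - x)) (p + 1)]
  have e3 : (((p + 1 + 1 : ℕ) : ℝ) - ((p + 1 : ℕ) : ℝ)) = 1 := by push_cast; ring
  have e4 : (((p + 1 + 1 : ℕ) : ℝ) - 1 - (p : ℝ)) = 1 := by push_cast; ring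
  rw [e3, e4, one_pow, one_pow]
  push_cast
  ring

/-- the block recursion for the closed form: for `m ≥ 1`,
`b_{m+1}(k) = ∑_{m ≤ i ≤ k} C(k,i) b_m(i) + C(k,m) m^m`. -/
theorem bnum_rec' (m k : ℕ) (hm : 1 ≤ m) (hk : m ≤ k) :
    bnum (m + 1) k
      = ∑ r ∈ range (k - m + 1), (k.choose r : ℝ) * bnum m (k - r) + (k.choose m : ℝ) * (m : ℝ) ^ m := by
  have h := bnum_rec m k hm
  obtain ⟨p, rfl⟩ : ∃ p, m = p + 1 := ⟨m - 1, by omega⟩
  rw [show p + 1 - 1 = p by omega] at h
  have h1 : ∑ i ∈ range (k + 1), (k.choose i : ℝ) * bnum (p + 1) i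
      = ∑ r ∈ range (k + 1), (k.choose r : ℝ) * bnum (p + 1) (k - r) := by
    rw [← Finset.sum_range_reflect]
    refine Finset.sum_congr rfl fun r hr => ?_
    have hr' : r ≤ k := by
      have := Finset.mem_range.mp hr
      omega
    rw [show k + 1 - 1 - r = k - r by omega, Nat.choose_symm hr']
  rw [h1] at h
  have h2 : range (k + 1) = range ((k - (p + 1) + 1) + (p + 1)) := by congr 1; omega
  rw [h2, Finset.sum_range_add] at h
  have h3 : ∑ x ∈ range (p + 1), (k.choose (k - (p + 1) + 1 + x) : ℝ) *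
      bnum (p + 1) (k - (k - (p + 1) + 1 + x)) = (k.choose p : ℝ) * (((p + 1 : ℕ) : ℝ)) ^ p := by
    rw [Finset.sum_eq_single 0]
    · rw [add_zero, show k - (k - (p + 1) + 1) = p by omega, bnum_diag,
        show k - (p + 1) + 1 = k - p by omega, Nat.choose_symm (by omega)]
      push_cast
      ring
    · intro x hx hx0
      have hx1 : k - (k - (p + 1) + 1 + x) + 2 ≤ p + 1 := by
        have := Finset.mem_range.mp hx
        omega
      rw [bnum_low (p + 1) _ hx1]
      simp
    · intro h0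
      simp at h0
  rw [h3] at h
  linarith

/-- **Block [F], equality form** (`#4208`).  `s m n` is the number at the start of block `m`,
`a m n` the number at its end. -/
theorem blockF (s a : ℕ → ℕ → ℕ) (hs : ∀ m, 1 ≤ m → s m m = m ^ (m - 1))
    (hs1 : ∀ n, 2 ≤ n → s 1 n = 0)
    (ha : ∀ m, 1 ≤ m → ∀ n, m ≤ n →
      a m n = ∑ r ∈ range (n - m + 1), (n - 1).choose r * s m (n - r))
    (hsa : ∀ m, 2 ≤ m → ∀ n, m < n → s m n = a (m - 1) n) :
    ∀ m, 1 ≤ m → a m (m + 1) + m ^ m = (m + 1) ^ m := by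
  have key : ∀ m, 1 ≤ m → ∀ n, m ≤ n → (a m n : ℝ) = bnum m (n - 1) := by
    intro m hm
    induction m, hm using Nat.le_induction with
    | base =>
      intro n hn
      rw [ha 1 le_rfl n hn]
      have e : (n - 1 + 1) = n := by omega
      rw [e, Finset.sum_eq_single (n - 1)]
      · rw [show n - (n - 1) = 1 by omega, hs 1 le_rfl]
        simp [bnum]
      · intro b hb hb'
        rw [hs1 _ (by have := Finset.mem_range.mp hb; omega)]
        simp
      · intro h
        exact absurd (Finset.mem_range.mpr (by omega)) h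
    | succ m hm ih =>
      intro n hn
      rw [ha (m + 1) (by omega) n hn]
      have hd : bnum (m + 1) m = bnum m m + (m : ℝ) ^ m := by
        have := bnum_rec' m m hm le_rfl
        simpa using this
      have hterm : ∀ r ∈ range (n - (m + 1) + 1),
          (((n - 1).choose r * s (m + 1) (n - r) : ℕ) : ℝ)
            = ((n - 1).choose r : ℝ) * bnum m (n - 1 - r)
              + if r = n - (m + 1) then ((n - 1).choose r : ℝ) * (m : ℝ) ^ m else 0 := by
        intro r hr
        have hr' := Finset.mem_range.mp hr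
        by_cases h : r = n - (m + 1)
        · rw [if_pos h]
          have e1 : n - r = m + 1 := by omega
          have e2 : n - 1 - r = m := by omega
          rw [e1, e2, hs (m + 1) (by omega)]
          push_cast
          have := bnum_diag m
          rw [hd] at this
          rw [← this]
          ring
        · rw [if_neg h, add_zero, hsa (m + 1) (by omega) (n - r) (by omega)]
          push_cast
          rw [ih (n - r) (by omega), show n - r - 1 = n - 1 - r by omega]
      push_cast at hterm ⊢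
      rw [Finset.sum_congr rfl hterm, Finset.sum_add_distrib, Finset.sum_ite_eq',
        if_pos (Finset.mem_range.mpr (by omega)), bnum_rec' m (n - 1) hm (by omega),
        show n - 1 - m + 1 = n - (m + 1) + 1 by omega]
      congr 2
      rw [show n - (m + 1) = n - 1 - m by omega, Nat.choose_symm (by omega)]
  intro m hm
  have h1 := key m hm (m + 1) (by omega)
  rw [show m + 1 - 1 = m by omega] at h1
  have h2 := bnum_rec' m m hm le_rfl
  have h3 := bnum_diag m
  have h4 : ((a m (m + 1) + m ^ m : ℕ) : ℝ) = (((m + 1) ^ m : ℕ) : ℝ) := by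
    push_cast
    rw [h1, ← h3, h2]
    simp
  exact_mod_cast h4

/-- The block-end numbers `a m n`, defined concretely. -/
def aN : ℕ → ℕ → ℕ
  | 0, _ => 0
  | (m + 1), n => ∑ r ∈ range (n - m), (n - 1).choose r *
      (if n - r = m + 1 then (m + 1) ^ m else aN m (n - r))

/-- The block-start numbers `s m n`, defined concretely. -/
def sN : ℕ → ℕ → ℕ
  | 0, _ => 0
  | (m + 1), n => if n = m + 1 then (m + 1) ^ m else aN m n

theorem aN_eq (m : ℕ) (hm : 1 ≤ m) (n : ℕ) (hn : m ≤ n) :
    aN m n = ∑ r ∈ range (n - m + 1), (n - 1).choose r * sN m (n - r) := by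
  obtain ⟨p, rfl⟩ : ∃ p, m = p + 1 := ⟨m - 1, by omega⟩
  rw [aN, show n - (p + 1) + 1 = n - p by omega]
  rfl

theorem sN_self (m : ℕ) (hm : 1 ≤ m) : sN m m = m ^ (m - 1) := by
  obtain ⟨p, rfl⟩ : ∃ p, m = p + 1 := ⟨m - 1, by omega⟩
  simp [sN]

theorem sN_of_lt (m : ℕ) (hm : 1 ≤ m) (n : ℕ) (hn : m < n) : sN m n = aN (m - 1) n := by
  obtain ⟨p, rfl⟩ : ∃ p, m = p + 1 := ⟨m - 1, by omega⟩
  rw [sN, if_neg (by omega)]
  rfl

/-- **Block [F]** for the concrete numbers. -/
theorem aN_succ (m : ℕ) (hm : 1 ≤ m) : aN m (m + 1) + m ^ m = (m + 1) ^ m := by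
  refine blockF sN aN sN_self ?_ aN_eq ?_ m hm
  · intro n hn
    rw [sN_of_lt 1 le_rfl n (by omega)]
    rfl
  · intro m hm n hn
    exact sN_of_lt m (by omega) n hn

/-- the numbers inside a block (after `j` steps, scaled by `q`). -/
def bN (q m j n : ℕ) : ℕ :=
  ∑ r ∈ range (n - m + 1), (n - 1).choose r * (j ^ r * (q ^ (n - r - 1) * sN m (n - r)))

theorem bN_self (q m j : ℕ) (hm : 1 ≤ m) : bN q m j m = (q * m) ^ (m - 1) := by
  simp [bN, sN_self m hm, mul_pow]

theorem bN_zero (q m n : ℕ) : bN q m 0 n = q ^ (n - 1) * sN m n := by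
  unfold bN
  rw [Finset.sum_eq_single 0]
  · simp
  · intro b _ hb
    rw [zero_pow hb]
    simp
  · intro h
    simp at h

theorem bN_last (q m n : ℕ) (hm : 1 ≤ m) (hn : m ≤ n) : bN q m q n = q ^ (n - 1) * aN m n := by
  rw [aN_eq m hm n hn, bN, mul_sum]
  refine Finset.sum_congr rfl fun r hr => ?_
  have hr' := Finset.mem_range.mp hr
  rw [show q ^ (n - 1) = q ^ r * q ^ (n - r - 1) by rw [← pow_add]; congr 1; omega]
  ring

theorem bN_step (q m j n : ℕ) (hn : m ≤ n) :
    bN q m (j + 1) n = ∑ r ∈ range (n - m + 1), (n - 1).choose r * bN q m j (n - r) := by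
  have e : ∀ r ∈ range (n - m + 1), (n - 1).choose r * bN q m j (n - r)
      = ∑ v ∈ range (n - m + 1), if r ≤ v then
          ((n - 1).choose r * ((n - r - 1).choose (v - r) * j ^ (v - r))) *
            (q ^ (n - v - 1) * sN m (n - v)) else 0 := by
    intro r hr
    have hr' := Finset.mem_range.mp hr
    rw [← Finset.sum_filter]
    rw [bN, mul_sum]
    refine Finset.sum_nbij' (fun t => t + r) (fun v => v - r) ?_ ?_ ?_ ?_ ?_
    · intro t ht
      simp only [mem_range, mem_filter] at ht ⊢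
      omega
    · intro v hv
      simp only [mem_range, mem_filter] at hv ⊢
      omega
    · intro t ht
      simp
    · intro v hv
      simp only [mem_range, mem_filter] at hv
      omega
    · intro t ht
      rw [show t + r - r = t by omega, show n - (t + r) = n - r - t by omega]
      ring
  rw [Finset.sum_congr rfl e, Finset.sum_comm, bN]
  refine Finset.sum_congr rfl fun v hv => ?_
  have hv' := Finset.mem_range.mp hv
  rw [← Finset.sum_filter]
  have e2 : (range (n - m + 1)).filter (fun r => r ≤ v) = range (v + 1) := by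
    ext r
    simp only [mem_range, mem_filter]
    omega
  rw [e2, ← Finset.sum_mul, add_comm j 1, add_pow]
  have e3 : (n - 1).choose v * ∑ r ∈ range (v + 1), 1 ^ r * j ^ (v - r) * (v.choose r)
      = ∑ i ∈ range (v + 1), (n - 1).choose i * ((n - i - 1).choose (v - i) * j ^ (v - i)) := by
    rw [mul_sum]
    refine Finset.sum_congr rfl fun i hi => ?_
    have hi' := Finset.mem_range.mp hi
    have hc := Nat.choose_mul (n := n - 1) (k := v) (s := i) (by omega)
    rw [show n - i - 1 = n - 1 - i by omega]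
    rw [one_pow, one_mul]
    calc (n - 1).choose v * (j ^ (v - i) * v.choose i)
        = ((n - 1).choose v * v.choose i) * j ^ (v - i) := by ring
      _ = _ := by rw [hc]; ring
  calc (n - 1).choose v * ((∑ r ∈ range (v + 1), 1 ^ r * j ^ (v - r) * (v.choose r)) *
        (q ^ (n - v - 1) * sN m (n - v)))
      = ((n - 1).choose v * ∑ r ∈ range (v + 1), 1 ^ r * j ^ (v - r) * (v.choose r)) *
        (q ^ (n - v - 1) * sN m (n - v)) := by ring
    _ = _ := by rw [e3]

/-- **Block [F], inequality form**, ready for the count (3) of `#4111`.  `D n E` is (an upper bound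
for) the dimension of the Dunkl kernel in `n` variables with all degrees `< E` (so `E = N + 1`). -/
theorem blockF_le (q d : ℕ) (D : ℕ → ℕ → ℕ)
    (h0 : ∀ n, 2 ≤ n → n ≤ d → D n 0 = 0)
    (h2 : ∀ m n E, 1 ≤ m → m < n → n ≤ d → q * (m - 1) < E → E ≤ q * m →
      D n E ≤ ∑ r ∈ range (n - m), (n - 1).choose r * D (n - r) (E - 1)
        + (n - 1).choose (n - m) * (q * m) ^ (m - 1)) :
    ∀ m, 1 ≤ m → m < d → D (m + 1) (q * m) + (q * m) ^ m ≤ (q * (m + 1)) ^ m := by
  have key : ∀ m, 1 ≤ m → ∀ j, j ≤ q → ∀ n, m < n → n ≤ d →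
      D n (q * (m - 1) + j) ≤ bN q m j n := by
    intro m hm
    induction m, hm using Nat.le_induction with
    | base =>
      intro j
      induction j with
      | zero =>
        intro _ n hn hnd
        rw [show q * (1 - 1) + 0 = 0 by omega, h0 n (by omega) hnd]
        exact Nat.zero_le _
      | succ j ihj =>
        intro hj n hn hnd
        refine (h2 1 n (q * (1 - 1) + (j + 1)) le_rfl hn hnd (by omega) (by omega)).trans ?_
        rw [bN_step q 1 j n (by omega), Finset.sum_range_succ, show n - (n - 1) = 1 by omega,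
          bN_self q 1 j le_rfl]
        gcongr with r hr
        have hr' := Finset.mem_range.mp hr
        rw [show q * (1 - 1) + (j + 1) - 1 = q * (1 - 1) + j by omega]
        exact ihj (by omega) (n - r) (by omega) (by omega)
    | succ m hm ih =>
      intro j
      induction j with
      | zero =>
        intro _ n hn hnd
        rw [bN_zero, sN_of_lt (m + 1) (by omega) n hn, show m + 1 - 1 = m by omega,
          ← bN_last q m n hm (by omega)]
        have := ih q le_rfl n (by omega) hnd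
        obtain ⟨p, rfl⟩ : ∃ p, m = p + 1 := ⟨m - 1, by omega⟩
        rw [show p + 1 - 1 = p by omega] at this
        rw [show q * (p + 1) + 0 = q * p + q by ring]
        exact this
      | succ j ihj =>
        intro hj n hn hnd
        have e1 : m + 1 - 1 = m := by omega
        refine (h2 (m + 1) n (q * (m + 1 - 1) + (j + 1)) (by omega) hn hnd (by omega)
          (by rw [e1, mul_add]; omega)).trans ?_
        rw [bN_step q (m + 1) j n (by omega), Finset.sum_range_succ,
          show n - (n - (m + 1)) = m + 1 by omega, bN_self q (m + 1) j (by omega)]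
        gcongr with r hr
        have hr' := Finset.mem_range.mp hr
        rw [show q * (m + 1 - 1) + (j + 1) - 1 = q * (m + 1 - 1) + j by omega]
        exact ihj (by omega) (n - r) (by omega) (by omega)
  intro m hm hmd
  have h := key m hm q le_rfl (m + 1) (by omega) (by omega)
  rw [bN_last q m (m + 1) hm (by omega)] at h
  obtain ⟨p, rfl⟩ : ∃ p, m = p + 1 := ⟨m - 1, by omega⟩
  rw [show q * (p + 1 - 1) + q = q * (p + 1) by rw [show p + 1 - 1 = p by omega]; ring,
    show p + 1 + 1 - 1 = p + 1 by omega] at h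
  have h3 := aN_succ (p + 1) (by omega)
  calc D (p + 1 + 1) (q * (p + 1)) + (q * (p + 1)) ^ (p + 1)
      ≤ q ^ (p + 1) * aN (p + 1) (p + 1 + 1) + (q * (p + 1)) ^ (p + 1) := by gcongr
    _ = q ^ (p + 1) * (aN (p + 1) (p + 1 + 1) + (p + 1) ^ (p + 1)) := by rw [mul_pow]; ring
    _ = (q * (p + 1 + 1)) ^ (p + 1) := by rw [h3, mul_pow]

end Vale.Agent.P181.H855
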